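import Vale.Agent.P146.H357.Low
import Vale.Agent.P146.H357.Cmp
import Vale.Agent.P146.H737.VB

/-!
# P146: at low temperature most configurations have a stretched-exponentially small Gibbs mass of
configurations with a small overlap with them
-/

open MeasureTheory ProbabilityTheory Set Filter Topology

namespace Vale.Agent.P146.H357

open Vale.Agent.P157.Lv Vale.Agent.P146.H425 Vale.Agent.P146.H605 Vale.Agent.P146.H605.Gauge

variable {n : ℕ} {β : ℝ}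

lemma p2_mono {ε ε' : ℝ} (h : ε ≤ ε') (g : Pair n → ℝ) (σ : Fin n → ℤˣ) :
    p2 n β ε g σ ≤ p2 n β ε' g σ := by
  unfold p2
  refine Finset.sum_le_sum fun τ _ => mul_le_mul_of_nonneg_right ?_ (gibbs_nonneg β g τ)
  by_cases h1 : |overlap n σ τ| ≤ ε
  · rw [if_pos h1, if_pos (h1.trans h)]
  · rw [if_neg h1]
    split_ifs <;> norm_num

/-- the comparison of `461` for `P2` -/
theorem P2_le (hn : 1 ≤ n) {x x' ε : ℝ} (hx' : 0 < x') (hxx : x' ≤ x) (hx : x ≤ 1) :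
    P2 n β x x' ε ≤
      Real.exp (β ^ 2 * x' * n * ε ^ 2 / 2 + Lg n β (x - x') + Lg n β x' - Lg n β x) := by
  have h := C.cmp_gibbs (β := β) (ε := ε) hn hx' hxx hx
  have e : ∀ (g : Pair n → ℝ) (σ : Fin n → ℤˣ), p2 n β ε g σ =
        ∑ τ ∈ Finset.univ.filter (fun τ : Fin n → ℤˣ => |overlap n σ τ| ≤ ε),
          gibbs n β g τ := by
    intro g σ
    unfold p2
    rw [Finset.sum_filter]
    exact Finset.sum_congr rfl fun τ _ => by split_ifs <;> simp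
  have eL : ∀ y : ℝ, Real.exp (Lg n β y) =
      ∫ g, Real.exp (y * freeEnergy n β g) ∂(disorder n) := fun y =>
    Real.exp_log (Zx_pos (n := n) (β := β) y)
  unfold P2
  simp_rw [e]
  rw [← eL x, div_le_iff₀ (Real.exp_pos _), ← Real.exp_add]
  refine h.trans (le_of_eq ?_)
  rw [← eL, ← eL, ← Real.exp_add, ← Real.exp_add]
  congr 1
  ring

/-- the moment generating function and the centred one -/
lemma Lg_eq (y c : ℝ) : Lg n β y = c * y +
    Real.log (∫ g, Real.exp (y * (freeEnergy n β g - c)) ∂(disorder n)) := by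
  have h1 : ∫ g, Real.exp (y * (freeEnergy n β g - c)) ∂(disorder n) =
      (∫ g, Real.exp (y * freeEnergy n β g) ∂(disorder n)) * Real.exp (-(c * y)) := by
    rw [← integral_mul_const]
    refine integral_congr_ae (Filter.Eventually.of_forall fun g => ?_)
    simp only
    rw [← Real.exp_add]
    congr 1
    ring
  have h2 : 0 < ∫ g, Real.exp (y * freeEnergy n β g) ∂(disorder n) := Zx_pos y
  rw [h1, Real.log_mul h2.ne' (Real.exp_pos _).ne', Real.log_exp]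
  unfold Lg
  ring

/-- The bad mass at one scale `x`, from the moment law. -/
theorem bad_scale (hn : 1 ≤ n) (hβ : 0 < β) {Λ c x θ1 : ℝ} (hΛ : 0 < Λ) (hx : 0 < x)
    (hx1 : x ≤ 1) (hm : ∀ y : ℝ, x / 2 ≤ y → y ≤ 2 * x →
      |Real.log (∫ g, Real.exp (y * (freeEnergy n β g - c)) ∂(disorder n)) -
        Λ * n * y ^ 6| ≤ Λ / 100 * n * y ^ 6) (h1 : 0 < θ1) (h2 : θ1 < Λ * n * x ^ 5) :
    ∫ g, ∑ σ : Fin n → ℤˣ, gibbs n β g σ *
        (if 1 ≤ p2 n β (√(Λ * x ^ 5) / β) g σ * (Real.exp θ1 - 1) then (1 : ℝ) else 0)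
          ∂(disorder n) ≤ θ1 * (4 / (Λ * n * x ^ 6) + 130 * x) := by
  have hn0 : (0 : ℝ) < n := by
    have : (1 : ℝ) ≤ n := by exact_mod_cast hn
    linarith
  obtain ⟨M, hM⟩ : ∃ M : ℝ → ℝ, ∀ y, M y =
    Real.log (∫ g, Real.exp (y * (freeEnergy n β g - c)) ∂(disorder n)) := ⟨_, fun _ => rfl⟩
  have hm' : ∀ y : ℝ, x / 2 ≤ y → y ≤ 2 * x → |M y - Λ * n * y ^ 6| ≤ Λ / 100 * n * y ^ 6 := by
    intro y h3 h4
    rw [hM]
    exact hm y h3 h4
  have hL : ∀ y, Lg n β y = c * y + M y := fun y => by rw [hM]; exact Lg_eq y c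
  have ha := abs_le.1 (hm' (x / 2) le_rfl (by linarith))
  have hb := abs_le.1 (hm' x (by linarith) (by linarith))
  have hc := abs_le.1 (hm' (2 * x) (by linarith) le_rfl)
  obtain ⟨N, hN⟩ : ∃ N, N = Λ * n * x ^ 6 := ⟨_, rfl⟩
  have hNp : 0 < N := by rw [hN]; positivity
  have e1 : Λ * n * (x / 2) ^ 6 = N / 64 := by rw [hN]; ring
  have e2 : Λ / 100 * n * (x / 2) ^ 6 = N / 6400 := by rw [hN]; ring
  have e3 : Λ / 100 * n * x ^ 6 = N / 100 := by rw [hN]; ring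
  have e4 : Λ * n * (2 * x) ^ 6 = 64 * N := by rw [hN]; ring
  have e5 : Λ / 100 * n * (2 * x) ^ 6 = 64 * N / 100 := by rw [hN]; ring
  rw [e1, e2] at ha
  rw [← hN, e3] at hb
  rw [e4, e5] at hc
  obtain ⟨θ, hθ⟩ : ∃ θ, θ = Λ * n * x ^ 5 := ⟨_, rfl⟩
  have hθN : x * θ = N := by rw [hθ, hN]; ring
  have hθp : 0 < θ := by rw [hθ]; positivity
  rw [← hθ] at h2
  have hP : P2 n β x (x / 2) (√(Λ * x ^ 5) / β) ≤ Real.exp (-(x / 2 * θ)) := by
    refine (P2_le hn (by linarith) (by linarith) hx1).trans (Real.exp_le_exp.2 ?_)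
    have e6 : β ^ 2 * (x / 2) * n * (√(Λ * x ^ 5) / β) ^ 2 / 2 = N / 4 := by
      rw [div_pow, Real.sq_sqrt (by positivity), hN]
      field_simp
      ring
    have e7 : x - x / 2 = x / 2 := by ring
    rw [e6, e7, hL, hL]
    have e8 : x / 2 * θ = N / 2 := by rw [← hθN]; ring
    rw [e8]
    linarith
  refine (bad_le (by linarith) (by linarith) h1 h2 hP).trans ?_
  have e9 : Lg n β (2 * x) - 2 * Lg n β x ≤ 64 * N := by
    rw [hL, hL]
    linarith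
  have e10 : Real.log 2 / (x / 2) ≤ 2 / x := by
    rw [div_le_div_iff₀ (by linarith) hx]
    have := Real.log_two_lt_d9
    nlinarith
  have h3 : 0 ≤ θ1 / θ := by positivity
  calc 2 * (θ1 / θ * (Real.log 2 / (x / 2) + (Lg n β (2 * x) - 2 * Lg n β x)))
      ≤ 2 * (θ1 / θ * (2 / x + 64 * N)) := by gcongr
    _ = θ1 * (4 / N + 128 * x) := by
        rw [← hθN]
        field_simp
        ring
    _ ≤ θ1 * (4 / N + 130 * x) := by
        refine mul_le_mul_of_nonneg_left ?_ h1.le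
        linarith
    _ = _ := by rw [hN]

/-- the events are comparable -/
lemma ind_le {A A' : ℝ} {ε ε' : ℝ} (hε : ε ≤ ε') (hexp : Real.exp A ≤ A')
    (g : Pair n → ℝ) (σ : Fin n → ℤˣ) :
    (if Real.exp (-A) < p2 n β ε g σ then (1 : ℝ) else 0) ≤
      (if 1 ≤ p2 n β ε' g σ * A' then (1 : ℝ) else 0) := by
  by_cases h : Real.exp (-A) < p2 n β ε g σ
  · rw [if_pos h, if_pos]
    have h14 := h.le.trans (p2_mono hε g σ)
    have h15 : Real.exp (-A) * Real.exp A = 1 := by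
      rw [← Real.exp_add, neg_add_cancel, Real.exp_zero]
    rw [← h15]
    exact mul_le_mul h14 hexp (Real.exp_pos _).le (p2_nonneg _ _ _)
  · rw [if_neg h]
    split_ifs <;> norm_num

lemma meas1 (c ε : ℝ) (σ : Fin n → ℤˣ) : Measurable fun g : Pair n → ℝ =>
    (if c < p2 n β ε g σ then (1 : ℝ) else 0) := by
  refine Measurable.ite ?_ measurable_const measurable_const
  exact measurableSet_lt measurable_const (cont_p2 ε σ).measurable

lemma meas2 (c ε : ℝ) (σ : Fin n → ℤˣ) : Measurable fun g : Pair n → ℝ =>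
    (if 1 ≤ p2 n β ε g σ * c then (1 : ℝ) else 0) := by
  refine Measurable.ite ?_ measurable_const measurable_const
  exact measurableSet_le measurable_const ((cont_p2 ε σ).measurable.mul_const _)

lemma int_gs {f : (Fin n → ℤˣ) → (Pair n → ℝ) → ℝ} (hf1 : ∀ σ, Measurable (f σ))
    (hf2 : ∀ σ g, 0 ≤ f σ g ∧ f σ g ≤ 1) : Integrable (fun g : Pair n → ℝ =>
      ∑ σ : Fin n → ℤˣ, gibbs n β g σ * f σ g) (disorder n) := by
  refine integrable_finsetSum _ fun σ _ => ?_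
  refine Integrable.of_bound ((continuous_gibbs β σ).measurable.mul
    (hf1 σ)).aestronglyMeasurable 1 (Filter.Eventually.of_forall fun g => ?_)
  rw [Real.norm_eq_abs, abs_mul, abs_of_nonneg (gibbs_nonneg β g σ),
    abs_of_nonneg (hf2 σ g).1]
  exact mul_le_one₀ (gibbs_le_one β g σ) (hf2 σ g).1 (hf2 σ g).2

/-- the integral of the bad mass is monotone -/
lemma int_mono {A A' ε ε' : ℝ} (hε : ε ≤ ε') (hexp : Real.exp A ≤ A') :
    ∫ g, ∑ σ : Fin n → ℤˣ, gibbs n β g σ *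
      (if Real.exp (-A) < p2 n β ε g σ then (1 : ℝ) else 0) ∂(disorder n) ≤
    ∫ g, ∑ σ : Fin n → ℤˣ, gibbs n β g σ *
      (if 1 ≤ p2 n β ε' g σ * A' then (1 : ℝ) else 0) ∂(disorder n) :=
  integral_mono
    (int_gs (f := fun σ g => if Real.exp (-A) < p2 n β ε g σ then (1 : ℝ) else 0)
      (fun σ => meas1 _ _ σ) fun σ g => by split_ifs <;> norm_num)
    (int_gs (f := fun σ g => if 1 ≤ p2 n β ε' g σ * A' then (1 : ℝ) else 0)
      (fun σ => meas2 _ _ σ) fun σ g => by split_ifs <;> norm_num)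
    fun g => Finset.sum_le_sum fun σ _ =>
      mul_le_mul_of_nonneg_left (ind_le hε hexp g σ) (gibbs_nonneg β g σ)

lemma rpow_pow_neg {x d : ℝ} (hx : 0 < x) (k : ℕ) : (x ^ (-d)) ^ k = x ^ (-(k * d)) := by
  rw [← Real.rpow_natCast, ← Real.rpow_mul hx.le]
  congr 1
  ring

lemma rpow_split {x : ℝ} (hx : 0 < x) {a b c : ℝ} (h : a = b + c) :
    x ^ a = x ^ b * x ^ c := by
  rw [h, Real.rpow_add hx]

/-- the bad mass at the scale `x = 2 n ^ (-d)` -/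
theorem bad_pow (hn : 1 ≤ n) (hβ : 0 < β) {Λ c a b d : ℝ} (hΛ : 0 < Λ)
    (hd1 : 2 * (n : ℝ) ^ (-d) ≤ 1) (hm : ∀ y : ℝ, (n : ℝ) ^ (-d) ≤ y → y ≤ 4 * (n : ℝ) ^ (-d) →
      |Real.log (∫ g, Real.exp (y * (freeEnergy n β g - c)) ∂(disorder n)) -
        Λ * n * y ^ 6| ≤ Λ / 100 * n * y ^ 6)
    (h4 : 1 / Λ < (n : ℝ) ^ (1 - 5 * d - b)) (h6 : β ^ 2 / Λ ≤ (n : ℝ) ^ (1 / 3 - 5 * d))
    (h7 : 2 ≤ (n : ℝ) ^ (b - a)) (h8 : 2 ≤ (n : ℝ) ^ b)
    (h9 : 1 / Λ ≤ (n : ℝ) ^ (1 - 7 * d)) :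
    ∫ g, ∑ σ : Fin n → ℤˣ, gibbs n β g σ *
      (if Real.exp (-((n : ℝ) ^ a)) < p2 n β ((n : ℝ) ^ (-(1 / 6) : ℝ)) g σ then (1 : ℝ) else 0)
        ∂(disorder n) ≤ 300 * (n : ℝ) ^ (-(d - b)) := by
  have hn1 : (1 : ℝ) ≤ n := by exact_mod_cast hn
  have hn0 : (0 : ℝ) < n := by linarith
  obtain ⟨x, hx⟩ : ∃ x, x = 2 * (n : ℝ) ^ (-d) := ⟨_, rfl⟩
  have hnd : 0 < (n : ℝ) ^ (-d) := by positivity
  have hx0 : 0 < x := by rw [hx]; positivity
  have hx5' : x ^ 5 = 32 * (n : ℝ) ^ (-(5 * d)) := by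
    rw [hx, mul_pow, rpow_pow_neg hn0]
    norm_num
  have hx6' : x ^ 6 = 64 * (n : ℝ) ^ (-(6 * d)) := by
    rw [hx, mul_pow, rpow_pow_neg hn0]
    norm_num
  have hx5 : n * x ^ 5 = 32 * (n : ℝ) ^ (1 - 5 * d) := by
    rw [hx5', rpow_split hn0 (show 1 - 5 * d = 1 + -(5 * d) by ring), Real.rpow_one]
    ring
  have hx6 : n * x ^ 6 = 64 * (n : ℝ) ^ (1 - 6 * d) := by
    rw [hx6', rpow_split hn0 (show 1 - 6 * d = 1 + -(6 * d) by ring), Real.rpow_one]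
    ring
  have hθ1 : 0 < (n : ℝ) ^ b := by positivity
  have hθ2 : (n : ℝ) ^ b < Λ * n * x ^ 5 := by
    rw [mul_assoc, hx5, rpow_split hn0 (show 1 - 5 * d = (1 - 5 * d - b) + b by ring)]
    have h10 : 1 < Λ * (n : ℝ) ^ (1 - 5 * d - b) := by
      rw [div_lt_iff₀ hΛ] at h4
      linarith
    have h11 := mul_lt_mul_of_pos_right h10 hθ1
    rw [one_mul] at h11
    have h12 : 0 < Λ * (n : ℝ) ^ (1 - 5 * d - b) * (n : ℝ) ^ b := hθ1.trans h11
    linarith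
  have hmain := bad_scale (n := n) (β := β) (Λ := Λ) (c := c) (x := x) hn hβ hΛ hx0
    (by rw [hx]; exact hd1)
    (fun y hy1 hy2 => hm y (by rw [hx] at hy1; linarith) (by rw [hx] at hy2; linarith))
    hθ1 hθ2
  have hε : (n : ℝ) ^ (-(1 / 6) : ℝ) ≤ √(Λ * x ^ 5) / β := by
    rw [le_div_iff₀ hβ]
    refine Real.le_sqrt_of_sq_le ?_
    rw [mul_pow]
    have e2 : ((n : ℝ) ^ (-(1 / 6) : ℝ)) ^ 2 = (n : ℝ) ^ (-(1 / 3) : ℝ) := by
      rw [← Real.rpow_natCast, ← Real.rpow_mul hn0.le]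
      norm_num
    rw [e2, hx5', rpow_split hn0 (show -(5 * d) = (1 / 3 - 5 * d) + -(1 / 3) by ring)]
    have h11 : β ^ 2 ≤ Λ * (n : ℝ) ^ (1 / 3 - 5 * d) := by
      rw [div_le_iff₀ hΛ] at h6
      linarith
    have h12 : 0 < (n : ℝ) ^ (-(1 / 3) : ℝ) := by positivity
    have h13 : 0 < Λ * (n : ℝ) ^ (1 / 3 - 5 * d) * (n : ℝ) ^ (-(1 / 3) : ℝ) := by positivity
    have h14 := mul_le_mul_of_nonneg_right h11 h12.le
    linarith
  have hexp : Real.exp ((n : ℝ) ^ a) ≤ Real.exp ((n : ℝ) ^ b) - 1 := by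
    have e5 : 2 * (n : ℝ) ^ a ≤ (n : ℝ) ^ b := by
      rw [rpow_split hn0 (show b = (b - a) + a by ring)]
      exact mul_le_mul_of_nonneg_right (by simpa using h7) (by positivity)
    have e7 : (n : ℝ) ^ a ≤ (n : ℝ) ^ b - 1 := by linarith
    have e8 : Real.exp ((n : ℝ) ^ a) ≤ Real.exp ((n : ℝ) ^ b - 1) := Real.exp_le_exp.2 e7
    have e9 : Real.exp ((n : ℝ) ^ b) = Real.exp ((n : ℝ) ^ b - 1) * Real.exp 1 := by
      rw [← Real.exp_add, sub_add_cancel]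
    have e10 : 1 ≤ Real.exp ((n : ℝ) ^ b - 1) := Real.one_le_exp (by linarith)
    have e11 : 2 ≤ Real.exp 1 := by
      have := Real.add_one_le_exp (1 : ℝ)
      linarith
    rw [e9]
    have e12 := mul_le_mul_of_nonneg_left e11 (zero_le_one.trans e10)
    linarith
  refine (int_mono hε hexp).trans (hmain.trans ?_)
  have h16 : 4 / (Λ * n * x ^ 6) ≤ x := by
    rw [mul_assoc, hx6, div_le_iff₀ (by positivity), hx]
    have e12 : 2 * (n : ℝ) ^ (-d) * (Λ * (64 * (n : ℝ) ^ (1 - 6 * d))) =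
        128 * (Λ * (n : ℝ) ^ (1 - 7 * d)) := by
      rw [rpow_split hn0 (show 1 - 7 * d = -d + (1 - 6 * d) by ring)]
      ring
    rw [e12]
    rw [div_le_iff₀ hΛ] at h9
    linarith
  have h17 : (n : ℝ) ^ b * (4 / (Λ * n * x ^ 6) + 130 * x) ≤ (n : ℝ) ^ b * (150 * x) :=
    mul_le_mul_of_nonneg_left (by linarith) hθ1.le
  refine h17.trans (le_of_eq ?_)
  rw [hx, rpow_split hn0 (show -(d - b) = b + -d by ring)]
  ring

/-- **Low temperature**: for every `β > 1` and `a < 1 / 15`, the mean Gibbs mass of the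
configurations `σ` for which the Gibbs mass of `|R(σ,·)| ≤ n ^ (-1/6)` is larger than
`exp (-n ^ a)` is at most `300 n ^ (-c)` for some `c > 0`. -/
theorem law (hβ : 1 < β) {a : ℝ} (ha : a < 1 / 15) :
    ∃ c : ℝ, 0 < c ∧ ∀ᶠ n : ℕ in atTop, ∫ g, ∑ σ : Fin n → ℤˣ, gibbs n β g σ *
      (if Real.exp (-((n : ℝ) ^ a)) < p2 n β ((n : ℝ) ^ (-(1 / 6) : ℝ)) g σ then (1 : ℝ) else 0)
        ∂(disorder n) ≤ 300 * (n : ℝ) ^ (-c) := by
  have hβ0 : 0 < β := by linarith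
  obtain ⟨Λf, -, hb⟩ := H737.bounds4
  obtain ⟨hΛ, p, D, -, hm, -⟩ := hb β hβ
  obtain ⟨Λ, hΛd⟩ : ∃ Λ, Λ = Λf β := ⟨_, rfl⟩
  rw [← hΛd] at hΛ
  -- the exponents `a < b < d < 1 / 15`, `0 < b`
  obtain ⟨m, hmd⟩ : ∃ m, m = max a 0 := ⟨_, rfl⟩
  have hm1 : m < 1 / 15 := by rw [hmd]; exact max_lt ha (by norm_num)
  have hm0 : 0 ≤ m := by rw [hmd]; exact le_max_right _ _
  have hma : a ≤ m := by rw [hmd]; exact le_max_left _ _
  obtain ⟨b, hbd⟩ : ∃ b, b = m + (1 / 15 - m) / 3 := ⟨_, rfl⟩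
  obtain ⟨d, hdd⟩ : ∃ d, d = m + 2 * (1 / 15 - m) / 3 := ⟨_, rfl⟩
  have hab : a < b := by rw [hbd]; linarith
  have hb0 : 0 < b := by rw [hbd]; linarith
  have hbd' : b < d := by rw [hbd, hdd]; linarith
  have hd1 : d < 1 / 15 := by rw [hdd]; linarith
  have hd0 : 0 < d := hb0.trans hbd'
  obtain ⟨δ, hδ, hev⟩ := hm (Λ / 100) (by positivity) d hd1
  rw [← hΛd] at hev
  refine ⟨d - b, by linarith, ?_⟩
  have t1 : Tendsto (fun n : ℕ => (n : ℝ) ^ (-d)) atTop (𝓝 0) :=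
    (tendsto_rpow_neg_atTop hd0).comp tendsto_natCast_atTop_atTop
  have tt : ∀ e : ℝ, 0 < e → Tendsto (fun n : ℕ => (n : ℝ) ^ e) atTop atTop := fun e he =>
    (tendsto_rpow_atTop he).comp tendsto_natCast_atTop_atTop
  filter_upwards [hev, eventually_ge_atTop 1, t1.eventually (gt_mem_nhds (show (0 : ℝ) <
      min (δ / 4) (1 / 4) by positivity)),
      (tt (1 - 5 * d - b) (by linarith)).eventually_gt_atTop (1 / Λ),
      (tt (1 / 3 - 5 * d) (by linarith)).eventually_ge_atTop (β ^ 2 / Λ),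
      (tt (b - a) (by linarith)).eventually_ge_atTop 2, (tt b hb0).eventually_ge_atTop 2,
      (tt (1 - 7 * d) (by linarith)).eventually_ge_atTop (1 / Λ)] with n h1 hn h3 h4 h6 h7 h8 h9
  have h31 : (n : ℝ) ^ (-d) < δ / 4 := h3.trans_le (min_le_left _ _)
  have h32 : (n : ℝ) ^ (-d) < 1 / 4 := h3.trans_le (min_le_right _ _)
  exact bad_pow (c := n * p) hn hβ0 hΛ (by linarith)
    (fun y hy1 hy2 => h1.1 y hy1 (by linarith)) h4 h6 h7 h8 h9

end Vale.Agent.P146.H357
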