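import Vale.Agent.P146.H357.Pen

/-!
# P146: the lower bound for the penalised planted partition function

The Gibbs variational principle with the law tilted by `exp (x F)`.
-/

open MeasureTheory ProbabilityTheory Set

namespace Vale.Agent.P146.H357

open Vale.Agent.P157.Lv Vale.Agent.P146.H425 Vale.Agent.P146.H605 Vale.Agent.P146.H605.Gauge

variable {n : ℕ} {β : ℝ}

/-- `E exp (x F)` -/
noncomputable def Zx (n : ℕ) (β x : ℝ) : ℝ := ∫ g, Real.exp (x * freeEnergy n β g) ∂(disorder n)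

lemma eg_ex (x : ℝ) : EG fun g : Pair n → ℝ => Real.exp (x * freeEnergy n β g) := lip_F.exp_eg x

lemma Zx_pos (x : ℝ) : 0 < Zx n β x := integral_exp_pos (eg_ex x).integrable

lemma log_Zx (x : ℝ) : Real.log (Zx n β x) = Lg n β x := rfl

/-- the mean of `F` under the tilt -/
noncomputable def EF (n : ℕ) (β x : ℝ) : ℝ :=
  (∫ g, Real.exp (x * freeEnergy n β g) * freeEnergy n β g ∂(disorder n)) / Zx n β x

lemma EF_le (x : ℝ) : x * EF n β x ≤ Lg n β (2 * x) - Lg n β x := by
  have h := jensen_tilt (κ := Pair n) (q := fun g => Real.exp (x * freeEnergy n β g))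
    (t := fun g => x * freeEnergy n β g) (eg_ex x) (fun g => (Real.exp_pos _).le) (Zx_pos x)
    (eg_free.const_mul x) (by
      have := eg_ex (n := n) (β := β) (2 * x)
      convert this using 2 with g
      rw [← Real.exp_add]
      congr 1
      ring)
  have e1 : ∫ g, Real.exp (x * freeEnergy n β g) * (x * freeEnergy n β g) ∂(gI (Pair n)) =
      x * ∫ g, Real.exp (x * freeEnergy n β g) * freeEnergy n β g ∂(disorder n) := by
    rw [← integral_const_mul, disorder_eq]
    exact integral_congr_ae (Filter.Eventually.of_forall fun g => by simp only; ring)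
  have e2 : ∫ g, Real.exp (x * freeEnergy n β g) * Real.exp (x * freeEnergy n β g)
      ∂(gI (Pair n)) = Zx n β (2 * x) := by
    unfold Zx
    rw [disorder_eq]
    refine integral_congr_ae (Filter.Eventually.of_forall fun g => ?_)
    simp only
    rw [← Real.exp_add]
    congr 1
    ring
  rw [e1, e2] at h
  have h1 : Zx n β x * Real.exp (x * EF n β x) ≤ Zx n β (2 * x) := by
    refine le_trans (le_of_eq ?_) h
    unfold EF
    rw [mul_div_assoc]
    rfl
  have h2 := Real.log_le_log (mul_pos (Zx_pos x) (Real.exp_pos _)) h1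
  rw [Real.log_mul (Zx_pos x).ne' (Real.exp_pos _).ne', Real.log_exp, log_Zx, log_Zx] at h2
  linarith

/-- the planted mean of the gap -/
noncomputable def EY (n : ℕ) (β x ε θ : ℝ) : ℝ :=
  2 ^ n * (∫ g, gibbs n β g 1 * Real.exp (x * freeEnergy n β g) *
    (freeEnergy n β g - Fp n β (fun σ => -θ * ps n ε σ) g) ∂(disorder n)) / Zx n β x

lemma eg_q0 (x : ℝ) : EG fun g : Pair n → ℝ =>
    gibbs n β g 1 * Real.exp (x * freeEnergy n β g) := (eg_gibbs 1).mul (eg_ex x)

lemma int_q0 (x : ℝ) : 2 ^ n * ∫ g, gibbs n β g 1 * Real.exp (x * freeEnergy n β g)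
    ∂(disorder n) = Zx n β x := by
  have h := gauge_gen (n := n)
    (f := fun σ g => gibbs n β g σ * Real.exp (x * freeEnergy n β g))
    (fun s g => by rw [gibbs_flip, free_flip, mul_one])
    (fun σ => ((eg_gibbs σ).mul (eg_ex x)).integrable)
  rw [← h]
  unfold Zx
  refine integral_congr_ae (Filter.Eventually.of_forall fun g => ?_)
  simp only
  rw [← Finset.sum_mul, sum_gibbs, one_mul]

lemma P2_eq (x ε : ℝ) {y : ℝ} (hy : 0 < y) : P2 n β x y ε * Zx n β x =
    2 ^ n * ∫ g, gibbs n β g 1 * Real.exp (x * freeEnergy n β g) * p2 n β ε g 1 ^ y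
      ∂(disorder n) := by
  have h := gauge_gen (n := n)
    (f := fun σ g => gibbs n β g σ * Real.exp (x * freeEnergy n β g) * p2 n β ε g σ ^ y)
    (fun s g => by rw [gibbs_flip, free_flip, p2_flip, mul_one])
    (fun σ => (((eg_gibbs σ).mul (eg_ex x)).mul (eg_p2 ε hy σ)).integrable)
  rw [← h]
  unfold P2
  have hZ := Zx_pos (n := n) (β := β) x
  have e : ∫ g, Real.exp (x * freeEnergy n β g) ∂(disorder n) = Zx n β x := rfl
  rw [e, div_mul_cancel₀ _ hZ.ne']
  refine integral_congr_ae (Filter.Eventually.of_forall fun g => ?_)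
  simp only
  rw [Finset.mul_sum]
  refine Finset.sum_congr rfl fun σ _ => ?_
  ring

lemma rpow_add_le {a b y : ℝ} (ha : 0 ≤ a) (hb : 0 ≤ b) (hy0 : 0 ≤ y) (hy1 : y ≤ 1) :
    (a + b) ^ y ≤ a ^ y + b ^ y := by
  lift a to NNReal using ha
  lift b to NNReal using hb
  exact_mod_cast NNReal.rpow_add_le_add_rpow a b hy0 hy1

/-- `e^{-Y} ≤ p2 + e^{-θ}` -/
lemma exp_gap_le (ε θ : ℝ) (g : Pair n → ℝ) :
    Real.exp (-(freeEnergy n β g - Fp n β (fun σ => -θ * ps n ε σ) g)) ≤
      p2 n β ε g 1 + Real.exp (-θ) := by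
  rw [exp_gap]
  unfold Dn
  have h1 := p2_nonneg (β := β) ε g 1
  have h3 := Real.exp_pos (-θ)
  have := mul_nonneg h1 h3.le
  linarith

lemma EY_ge {x x' ε θ : ℝ} (hx' : 0 < x') (hx1 : x' ≤ 1)
    (h : P2 n β x x' ε ≤ Real.exp (-(x' * θ))) :
    θ - Real.log 2 / x' ≤ EY n β x ε θ := by
  have hZ := Zx_pos (n := n) (β := β) x
  have h2n : (0 : ℝ) < 2 ^ n := by positivity
  have h0 := int_q0 (n := n) (β := β) x
  have hq : 0 < ∫ g, gibbs n β g 1 * Real.exp (x * freeEnergy n β g) ∂(gI (Pair n)) := by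
    rw [← disorder_eq]
    by_contra hc
    have := mul_nonpos_of_nonneg_of_nonpos h2n.le (not_lt.1 hc)
    linarith
  obtain ⟨q, hqd⟩ : ∃ q, q = ∫ g, gibbs n β g 1 * Real.exp (x * freeEnergy n β g)
    ∂(disorder n) := ⟨_, rfl⟩
  rw [← hqd] at h0
  have egap : EG fun g : Pair n → ℝ => freeEnergy n β g -
      Fp n β (fun σ => -θ * ps n ε σ) g := eg_free.sub (lip_Fp _).eg
  have e3 : EG fun g : Pair n → ℝ => gibbs n β g 1 * Real.exp (x * freeEnergy n β g) *
      Real.exp (-x' * (freeEnergy n β g - Fp n β (fun σ => -θ * ps n ε σ) g)) := by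
    have hl : Lip fun g : Pair n → ℝ => freeEnergy n β g -
      Fp n β (fun σ => -θ * ps n ε σ) g := by
      have := (lip_F (n := n) (β := β)).add ((lip_Fp (n := n) (β := β)
        (fun σ => -θ * ps n ε σ)).const_mul (-1))
      convert this using 2
      ring
    exact (eg_q0 x).mul (hl.exp_eg (-x'))
  have h1 := jensen_tilt (κ := Pair n)
    (q := fun g => gibbs n β g 1 * Real.exp (x * freeEnergy n β g))
    (t := fun g => -x' * (freeEnergy n β g - Fp n β (fun σ => -θ * ps n ε σ) g))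
    (eg_q0 x) (fun g => mul_nonneg (gibbs_nonneg β g 1) (Real.exp_pos _).le) hq
    (egap.const_mul _) e3
  have e4 : ∫ g, gibbs n β g 1 * Real.exp (x * freeEnergy n β g) *
      (-x' * (freeEnergy n β g - Fp n β (fun σ => -θ * ps n ε σ) g)) ∂(gI (Pair n)) =
      -x' * ∫ g, gibbs n β g 1 * Real.exp (x * freeEnergy n β g) *
      (freeEnergy n β g - Fp n β (fun σ => -θ * ps n ε σ) g) ∂(disorder n) := by
    rw [← integral_const_mul, disorder_eq]
    exact integral_congr_ae (Filter.Eventually.of_forall fun g => by simp only; ring)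
  have e5 : ∫ g, gibbs n β g 1 * Real.exp (x * freeEnergy n β g) *
      Real.exp (-x' * (freeEnergy n β g - Fp n β (fun σ => -θ * ps n ε σ) g))
        ∂(gI (Pair n)) ≤
      ∫ g, gibbs n β g 1 * Real.exp (x * freeEnergy n β g) *
        (p2 n β ε g 1 ^ x' + Real.exp (-(x' * θ))) ∂(gI (Pair n)) := by
    refine integral_mono e3.integrable
      ((eg_q0 x).mul ((eg_p2 ε hx' 1).add (EG.const _))).integrable fun g => ?_
    simp only
    refine mul_le_mul_of_nonneg_left ?_ (mul_nonneg (gibbs_nonneg β g 1) (Real.exp_pos _).le)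
    have h6 := exp_gap_le (β := β) ε θ g
    have h7 : Real.exp (-x' * (freeEnergy n β g - Fp n β (fun σ => -θ * ps n ε σ) g)) =
        Real.exp (-(freeEnergy n β g - Fp n β (fun σ => -θ * ps n ε σ) g)) ^ x' := by
      rw [← Real.exp_mul]
      congr 1
      ring
    have h8 : Real.exp (-(x' * θ)) = Real.exp (-θ) ^ x' := by
      rw [← Real.exp_mul]
      congr 1
      ring
    rw [h7, h8]
    exact (Real.rpow_le_rpow (Real.exp_pos _).le h6 hx'.le).trans
      (rpow_add_le (p2_nonneg ε g 1) (Real.exp_pos _).le hx'.le hx1)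
  have e6 : ∫ g, gibbs n β g 1 * Real.exp (x * freeEnergy n β g) *
        (p2 n β ε g 1 ^ x' + Real.exp (-(x' * θ))) ∂(gI (Pair n)) =
      (∫ g, gibbs n β g 1 * Real.exp (x * freeEnergy n β g) * p2 n β ε g 1 ^ x'
        ∂(disorder n)) + Real.exp (-(x' * θ)) * q := by
    simp_rw [mul_add]
    rw [integral_add ((eg_q0 x).mul (eg_p2 ε hx' 1)).integrable
      ((eg_q0 x).mul (EG.const _)).integrable, integral_mul_const, hqd, disorder_eq, mul_comm
      (Real.exp (-(x' * θ)))]
  rw [e4] at h1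
  have h9 := h1.trans (e5.trans_eq e6)
  rw [← disorder_eq, ← hqd] at h9
  have h10 := P2_eq (n := n) (β := β) x ε hx'
  have h11 := mul_le_mul_of_nonneg_left h9 h2n.le
  rw [mul_add, ← h10, ← mul_assoc, h0] at h11
  have e7 : (2 : ℝ) ^ n * (Real.exp (-(x' * θ)) * q) = Real.exp (-(x' * θ)) * Zx n β x := by
    rw [← h0]; ring
  rw [e7] at h11
  have e8 : -x' * (∫ g, gibbs n β g 1 * Real.exp (x * freeEnergy n β g) *
      (freeEnergy n β g - Fp n β (fun σ => -θ * ps n ε σ) g) ∂(disorder n)) / q =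
      -x' * EY n β x ε θ := by
    unfold EY
    have hq0 : q ≠ 0 := by rw [hqd]; exact hq.ne'
    rw [← h0]
    field_simp
  rw [e8] at h11
  have h12 : Real.exp (-x' * EY n β x ε θ) ≤ 2 * Real.exp (-(x' * θ)) := by
    have h13 := mul_le_mul_of_nonneg_right h hZ.le
    have h14 : Zx n β x * Real.exp (-x' * EY n β x ε θ) ≤
        Zx n β x * (2 * Real.exp (-(x' * θ))) := by linarith
    exact le_of_mul_le_mul_left h14 hZ
  have h15 := Real.log_le_log (Real.exp_pos _) h12
  rw [Real.log_exp, Real.log_mul (by norm_num) (Real.exp_pos _).ne', Real.log_exp] at h15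
  have e9 : θ - Real.log 2 / x' = (x' * θ - Real.log 2) / x' := by field_simp
  rw [e9, div_le_iff₀ hx']
  linarith

/-- **The lower bound.** -/
theorem J_lower (x ε θ : ℝ) :
    Lg n β x + EY n β x ε θ - x * EF n β x ≤ Real.log (Jt n β ε θ) := by
  have hZ := Zx_pos (n := n) (β := β) x
  have h2n : (0 : ℝ) < 2 ^ n := by positivity
  have eq := eg_q0 (n := n) (β := β) x
  have egap : EG fun g : Pair n → ℝ => freeEnergy n β g -
      Fp n β (fun σ => -θ * ps n ε σ) g := eg_free.sub (lip_Fp _).eg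
  have et : EG fun g : Pair n → ℝ =>
      (freeEnergy n β g - Fp n β (fun σ => -θ * ps n ε σ) g) - x * freeEnergy n β g :=
    egap.sub (eg_free.const_mul x)
  have eJ : EG fun g : Pair n → ℝ => Real.exp (ph n β ε θ g) := by
    simpa using (lip_ph (n := n) (β := β) ε θ).exp_eg 1
  have hfe : ∀ g : Pair n → ℝ, gibbs n β g 1 * Real.exp (x * freeEnergy n β g) *
      Real.exp ((freeEnergy n β g - Fp n β (fun σ => -θ * ps n ε σ) g) -
        x * freeEnergy n β g) = Real.exp (ph n β ε θ g) := by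
    intro g
    rw [gibbs_eq, ← Real.exp_add, ← Real.exp_add]
    unfold ph
    congr 1
    ring
  have ee : EG fun g : Pair n → ℝ => gibbs n β g 1 * Real.exp (x * freeEnergy n β g) *
      Real.exp ((freeEnergy n β g - Fp n β (fun σ => -θ * ps n ε σ) g) -
        x * freeEnergy n β g) := by
    simp_rw [hfe]
    exact eJ
  have hq1 := int_q0 (n := n) (β := β) x
  obtain ⟨q, hqd⟩ : ∃ q, q = ∫ g, gibbs n β g 1 * Real.exp (x * freeEnergy n β g)
    ∂(disorder n) := ⟨_, rfl⟩
  rw [← hqd] at hq1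
  have hq0 : 0 < q := by
    by_contra hc
    have := mul_nonpos_of_nonneg_of_nonpos h2n.le (not_lt.1 hc)
    linarith
  have hqi : ∫ g, gibbs n β g 1 * Real.exp (x * freeEnergy n β g) ∂(gI (Pair n)) = q := by
    rw [hqd, disorder_eq]
  have hJ := jensen_tilt (κ := Pair n) eq
    (fun g => mul_nonneg (gibbs_nonneg β g 1) (Real.exp_pos _).le)
    (by rw [hqi]; exact hq0) et ee
  simp_rw [hfe] at hJ
  rw [hqi] at hJ
  have i1 := eq.mul egap
  have i2 := (eg_gibbs (n := n) (β := β) 1).mul ((eg_ex (β := β) x).mul (eg_free (β := β)))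
  have hT : ∫ g, gibbs n β g 1 * Real.exp (x * freeEnergy n β g) *
      ((freeEnergy n β g - Fp n β (fun σ => -θ * ps n ε σ) g) - x * freeEnergy n β g)
        ∂(gI (Pair n)) =
      (∫ g, gibbs n β g 1 * Real.exp (x * freeEnergy n β g) *
      (freeEnergy n β g - Fp n β (fun σ => -θ * ps n ε σ) g) ∂(gI (Pair n))) -
      x * (∫ g, gibbs n β g 1 * (Real.exp (x * freeEnergy n β g) *
        freeEnergy n β g) ∂(gI (Pair n))) := by
    have e1 : ∀ g : Pair n → ℝ, gibbs n β g 1 * Real.exp (x * freeEnergy n β g) *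
      ((freeEnergy n β g - Fp n β (fun σ => -θ * ps n ε σ) g) - x * freeEnergy n β g) =
      gibbs n β g 1 * Real.exp (x * freeEnergy n β g) *
      (freeEnergy n β g - Fp n β (fun σ => -θ * ps n ε σ) g) -
      x * (gibbs n β g 1 * (Real.exp (x * freeEnergy n β g) * freeEnergy n β g)) := by
      intro g; ring
    simp_rw [e1]
    rw [integral_sub i1.integrable (i2.const_mul x).integrable, integral_const_mul]
  have hA1 : ∫ g, gibbs n β g 1 * Real.exp (x * freeEnergy n β g) *
      (freeEnergy n β g - Fp n β (fun σ => -θ * ps n ε σ) g) ∂(gI (Pair n)) =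
        q * EY n β x ε θ := by
    unfold EY
    rw [← hq1, disorder_eq]
    field_simp
  have hA2 : 2 ^ n * ∫ g, gibbs n β g 1 * (Real.exp (x * freeEnergy n β g) *
        freeEnergy n β g) ∂(gI (Pair n)) = Zx n β x * EF n β x := by
    have h := gauge_gen (n := n)
      (f := fun σ g => gibbs n β g σ * (Real.exp (x * freeEnergy n β g) *
        freeEnergy n β g))
      (fun s g => by rw [free_flip, gibbs_flip, mul_one])
      (fun σ => ((eg_gibbs (n := n) (β := β) σ).mul
        ((eg_ex (β := β) x).mul (eg_free (β := β)))).integrable)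
    rw [← disorder_eq, ← h]
    simp_rw [← Finset.sum_mul, sum_gibbs, one_mul]
    unfold EF
    rw [mul_div_cancel₀ _ hZ.ne']
  rw [hT, hA1] at hJ
  obtain ⟨B, hB⟩ : ∃ B, B = ∫ g, gibbs n β g 1 *
    (Real.exp (x * freeEnergy n β g) * freeEnergy n β g) ∂(gI (Pair n)) := ⟨_, rfl⟩
  rw [← hB] at hJ hA2
  have eB : B = q * EF n β x := by
    have h5 : 2 ^ n * B = 2 ^ n * (q * EF n β x) := by rw [hA2, ← hq1]; ring
    exact mul_left_cancel₀ h2n.ne' h5
  have e9 : (q * EY n β x ε θ - x * B) / q = EY n β x ε θ - x * EF n β x := by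
    rw [eB]
    field_simp
  rw [e9] at hJ
  have h6 := mul_le_mul_of_nonneg_left hJ h2n.le
  rw [← mul_assoc, hq1, J_eq] at h6
  have h7 := Real.log_le_log (mul_pos hZ (Real.exp_pos _)) h6
  rw [Real.log_mul hZ.ne' (Real.exp_pos _).ne', Real.log_exp, log_Zx] at h7
  linarith

/-- The value at a small `θ₁`. -/
theorem J_ge {x x' ε θ θ1 : ℝ} (hx' : 0 < x') (hx'1 : x' ≤ 1) (h1 : 0 < θ1) (h2 : θ1 < θ)
    (hP : P2 n β x x' ε ≤ Real.exp (-(x' * θ))) :
    θ1 / θ * (θ - Real.log 2 / x' - (Lg n β (2 * x) - 2 * Lg n β x)) ≤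
      Real.log (Jt n β ε θ1) := by
  have h3 := J_lower (n := n) (β := β) x ε θ
  have h4 := EY_ge (n := n) (β := β) hx' hx'1 hP
  have h5 := EF_le (n := n) (β := β) x
  have h6 := J_conc (n := n) (β := β) ε h1 h2
  have h7 : 0 ≤ θ1 / θ := (div_pos h1 (h1.trans h2)).le
  have h8 : θ - Real.log 2 / x' - (Lg n β (2 * x) - 2 * Lg n β x) ≤
      Real.log (Jt n β ε θ) := by linarith
  exact (mul_le_mul_of_nonneg_left h8 h7).trans h6

/-- **Most configurations have a small `p₂`.** -/
theorem bad_le {x x' ε θ θ1 : ℝ} (hx' : 0 < x') (hx'1 : x' ≤ 1) (h1 : 0 < θ1) (h2 : θ1 < θ)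
    (hP : P2 n β x x' ε ≤ Real.exp (-(x' * θ))) :
    ∫ g, ∑ σ : Fin n → ℤˣ, gibbs n β g σ *
        (if 1 ≤ p2 n β ε g σ * (Real.exp θ1 - 1) then (1 : ℝ) else 0) ∂(disorder n) ≤
      2 * (θ1 / θ * (Real.log 2 / x' + (Lg n β (2 * x) - 2 * Lg n β x))) := by
  obtain ⟨K, hK⟩ : ∃ K, K = Real.log 2 / x' + (Lg n β (2 * x) - 2 * Lg n β x) := ⟨_, rfl⟩
  have hJ := J_ge (β := β) hx' hx'1 h1 h2 hP
  have hθ : 0 < θ := h1.trans h2
  have e1 : θ1 / θ * (θ - Real.log 2 / x' - (Lg n β (2 * x) - 2 * Lg n β x)) =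
      θ1 - θ1 / θ * K := by
    rw [hK]
    field_simp
    ring
  rw [e1] at hJ
  rw [← hK]
  have hJp := Jt_pos (n := n) (β := β) ε θ1
  have h3 : 1 - θ1 / θ * K ≤ Real.exp (-θ1) * Jt n β ε θ1 := by
    have h4 : Real.exp (θ1 - θ1 / θ * K) ≤ Jt n β ε θ1 := by
      rw [← Real.exp_log hJp]
      exact Real.exp_le_exp.2 hJ
    have h5 := mul_le_mul_of_nonneg_left h4 (Real.exp_pos (-θ1)).le
    rw [← Real.exp_add] at h5
    have h6 := Real.add_one_le_exp (-θ1 + (θ1 - θ1 / θ * K))
    linarith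
  have hE1 : 0 < Real.exp θ1 - 1 := by linarith [Real.add_one_lt_exp h1.ne']
  have hpt : ∀ g : Pair n → ℝ, ∀ σ : Fin n → ℤˣ,
      (if 1 ≤ p2 n β ε g σ * (Real.exp θ1 - 1) then (1 : ℝ) else 0) ≤
        2 * (1 - Real.exp (-θ1) * (Dn n β ε θ1 g σ)⁻¹) := by
    intro g σ
    have hp0 := p2_nonneg (β := β) ε g σ
    obtain ⟨u, hu⟩ : ∃ u, u = p2 n β ε g σ * (Real.exp θ1 - 1) := ⟨_, rfl⟩
    have hu0 : 0 ≤ u := by rw [hu]; positivity
    have e2 : Real.exp (-θ1) * (Dn n β ε θ1 g σ)⁻¹ = (1 + u)⁻¹ := by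
      have e3 : 1 + u = Real.exp θ1 * Dn n β ε θ1 g σ := by
        rw [hu]
        unfold Dn
        have e4 : Real.exp θ1 * Real.exp (-θ1) = 1 := by
          rw [← Real.exp_add, add_neg_cancel, Real.exp_zero]
        linear_combination (1 - p2 n β ε g σ) * (-e4)
      rw [e3, mul_inv, Real.exp_neg]
    rw [e2, ← hu]
    have e5 : 1 - (1 + u)⁻¹ = u / (1 + u) := by
      field_simp
      ring
    rw [e5]
    split_ifs with h
    · rw [mul_div_assoc', le_div_iff₀ (by linarith)]
      linarith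
    · positivity
  have hI : ∀ σ : Fin n → ℤˣ, Integrable (fun g : Pair n → ℝ => gibbs n β g σ *
      (2 * (1 - Real.exp (-θ1) * (Dn n β ε θ1 g σ)⁻¹))) (disorder n) := by
    intro σ
    have i1 := ((integrable_gibbs (n := n) β σ).sub
      ((int_gD (n := n) (β := β) ε θ1 σ).const_mul (Real.exp (-θ1)))).const_mul 2
    refine i1.congr (Filter.Eventually.of_forall fun g => ?_)
    simp only [Pi.sub_apply]
    ring
  have hmeas : ∀ σ : Fin n → ℤˣ, Measurable fun g : Pair n → ℝ =>
      (if 1 ≤ p2 n β ε g σ * (Real.exp θ1 - 1) then (1 : ℝ) else 0) := by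
    intro σ
    refine Measurable.ite ?_ measurable_const measurable_const
    exact measurableSet_le measurable_const ((cont_p2 ε σ).measurable.mul_const _)
  have hI1 : ∀ σ : Fin n → ℤˣ, Integrable (fun g : Pair n → ℝ => gibbs n β g σ *
      (if 1 ≤ p2 n β ε g σ * (Real.exp θ1 - 1) then (1 : ℝ) else 0)) (disorder n) := by
    intro σ
    refine Integrable.of_bound ((continuous_gibbs β σ).measurable.mul
      (hmeas σ)).aestronglyMeasurable 1 (Filter.Eventually.of_forall fun g => ?_)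
    rw [Real.norm_eq_abs, abs_mul, abs_of_nonneg (gibbs_nonneg β g σ)]
    have h7 := gibbs_le_one β g σ
    have h8 := gibbs_nonneg β g σ
    split_ifs
    · simpa using h7
    · simp
  calc ∫ g, ∑ σ : Fin n → ℤˣ, gibbs n β g σ *
        (if 1 ≤ p2 n β ε g σ * (Real.exp θ1 - 1) then (1 : ℝ) else 0) ∂(disorder n)
      ≤ ∫ g, ∑ σ : Fin n → ℤˣ, gibbs n β g σ *
          (2 * (1 - Real.exp (-θ1) * (Dn n β ε θ1 g σ)⁻¹)) ∂(disorder n) := by
        refine integral_mono (integrable_finsetSum _ fun σ _ => hI1 σ)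
          (integrable_finsetSum _ fun σ _ => hI σ) fun g => ?_
        simp only
        exact Finset.sum_le_sum fun σ _ =>
          mul_le_mul_of_nonneg_left (hpt g σ) (gibbs_nonneg β g σ)
    _ = 2 * (1 - Real.exp (-θ1) * Jt n β ε θ1) := by
        have e6 : ∀ g : Pair n → ℝ, ∑ σ : Fin n → ℤˣ, gibbs n β g σ *
            (2 * (1 - Real.exp (-θ1) * (Dn n β ε θ1 g σ)⁻¹)) =
            2 * (1 - Real.exp (-θ1) * ∑ σ : Fin n → ℤˣ, gibbs n β g σ *
              (Dn n β ε θ1 g σ)⁻¹) := by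
          intro g
          have e7 : ∀ σ : Fin n → ℤˣ, gibbs n β g σ *
              (2 * (1 - Real.exp (-θ1) * (Dn n β ε θ1 g σ)⁻¹)) =
              2 * gibbs n β g σ - 2 * Real.exp (-θ1) *
                (gibbs n β g σ * (Dn n β ε θ1 g σ)⁻¹) := fun σ => by ring
          simp_rw [e7]
          rw [Finset.sum_sub_distrib, ← Finset.mul_sum, ← Finset.mul_sum, sum_gibbs]
          ring
        simp_rw [e6]
        rw [integral_const_mul, integral_sub (integrable_const _)
          ((integrable_finsetSum _ fun σ _ => int_gD ε θ1 σ).const_mul _),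
          integral_const_mul]
        simp [Jt]
    _ ≤ 2 * (θ1 / θ * K) := by linarith

end Vale.Agent.P146.H357
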