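import Vale.Agent.P146.H863.GumLC
import Vale.Agent.P146.H425.VarKL

/-!
# P146: a penalty on the configurations with a large overlap with the planted one

`log E ∑_σ G(σ) / (p₂(σ) + (1 - p₂(σ)) e^{-θ})`, where `p₂(σ) = G(|R(σ,·)| ≤ ε)`, is a concave
function of `θ` (gauge symmetry and the Prékopa theorem); the value at a large `θ` is bounded from
below by the Gibbs variational principle with the law tilted by `exp (x F)`.
-/

open MeasureTheory ProbabilityTheory Set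

namespace Vale.Agent.P146.H357

open Vale.Agent.P157.Lv Vale.Agent.P146.H425 Vale.Agent.P146.H605 Vale.Agent.P146.H605.Gauge

/-! ### log-sum-exp -/

section lse

variable {ι : Type*} [Fintype ι] [Nonempty ι]

lemma sum_exp_pos (u : ι → ℝ) : 0 < ∑ i, Real.exp (u i) :=
  Finset.sum_pos (fun _ _ => Real.exp_pos _) Finset.univ_nonempty

lemma lse_le {u v : ι → ℝ} {c : ℝ} (h : ∀ i, u i ≤ v i + c) :
    Real.log (∑ i, Real.exp (u i)) ≤ Real.log (∑ i, Real.exp (v i)) + c := by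
  rw [← Real.log_exp c, ← Real.log_mul (sum_exp_pos v).ne' (Real.exp_pos c).ne']
  refine Real.log_le_log (sum_exp_pos u) ?_
  rw [Finset.sum_mul]
  refine Finset.sum_le_sum fun i _ => ?_
  rw [← Real.exp_add]
  exact Real.exp_le_exp.2 (h i)

lemma lse_comb {a b : ℝ} (ha : 0 ≤ a) (hb : 0 ≤ b) (hab : a + b = 1) (u v : ι → ℝ) :
    Real.log (∑ i, Real.exp (a * u i + b * v i)) ≤
      a * Real.log (∑ i, Real.exp (u i)) + b * Real.log (∑ i, Real.exp (v i)) := by
  obtain ⟨A, hA⟩ : ∃ A, A = Real.log (∑ i, Real.exp (u i)) := ⟨_, rfl⟩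
  obtain ⟨B, hB⟩ : ∃ B, B = Real.log (∑ i, Real.exp (v i)) := ⟨_, rfl⟩
  rw [← hA, ← hB]
  have eA : Real.exp A = ∑ i, Real.exp (u i) := by rw [hA, Real.exp_log (sum_exp_pos u)]
  have eB : Real.exp B = ∑ i, Real.exp (v i) := by rw [hB, Real.exp_log (sum_exp_pos v)]
  rw [Real.log_le_iff_le_exp (sum_exp_pos _)]
  have h1 : ∀ i, Real.exp (a * u i + b * v i) ≤
      Real.exp (a * A + b * B) * (a * (Real.exp (u i) * Real.exp (-A)) +
        b * (Real.exp (v i) * Real.exp (-B))) := by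
    intro i
    have h := convexOn_exp.2 (mem_univ (u i - A)) (mem_univ (v i - B)) ha hb hab
    simp only [smul_eq_mul] at h
    have e : Real.exp (a * u i + b * v i) =
        Real.exp (a * A + b * B) * Real.exp (a * (u i - A) + b * (v i - B)) := by
      rw [← Real.exp_add]
      congr 1
      ring
    have e1 : Real.exp (u i) * Real.exp (-A) = Real.exp (u i - A) := by
      rw [← Real.exp_add, sub_eq_add_neg]
    have e2 : Real.exp (v i) * Real.exp (-B) = Real.exp (v i - B) := by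
      rw [← Real.exp_add, sub_eq_add_neg]
    rw [e, e1, e2]
    exact mul_le_mul_of_nonneg_left h (Real.exp_pos _).le
  calc ∑ i, Real.exp (a * u i + b * v i) ≤ ∑ i, Real.exp (a * A + b * B) *
        (a * (Real.exp (u i) * Real.exp (-A)) + b * (Real.exp (v i) * Real.exp (-B))) :=
        Finset.sum_le_sum fun i _ => h1 i
    _ = Real.exp (a * A + b * B) * (a * ((∑ i, Real.exp (u i)) * Real.exp (-A)) +
        b * ((∑ i, Real.exp (v i)) * Real.exp (-B))) := by
        rw [← Finset.mul_sum, Finset.sum_add_distrib, ← Finset.mul_sum, ← Finset.mul_sum,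
          Finset.sum_mul, Finset.sum_mul]
    _ = Real.exp (a * A + b * B) := by
        rw [← eA, ← eB, ← Real.exp_add, ← Real.exp_add, add_neg_cancel, add_neg_cancel,
          Real.exp_zero, mul_one, mul_one, hab, mul_one]

end lse

/-! ### the objects -/

/-- `log ∑ exp (β H_σ + w σ)` -/
noncomputable def Fp (n : ℕ) (β : ℝ) (w : (Fin n → ℤˣ) → ℝ) (g : Pair n → ℝ) : ℝ :=
  Real.log (∑ σ : Fin n → ℤˣ, Real.exp (β * hamiltonian n g σ + w σ))

/-- `log E exp (y F)` -/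
noncomputable def Lg (n : ℕ) (β y : ℝ) : ℝ :=
  Real.log (∫ g, Real.exp (y * freeEnergy n β g) ∂(disorder n))

/-- the indicator of `|R(σ,1)| > ε` -/
noncomputable def ps (n : ℕ) (ε : ℝ) (σ : Fin n → ℤˣ) : ℝ :=
  if ε < |overlap n σ 1| then 1 else 0

/-- the Gibbs probability of `|R(σ,·)| ≤ ε` -/
noncomputable def p2 (n : ℕ) (β ε : ℝ) (g : Pair n → ℝ) (σ : Fin n → ℤˣ) : ℝ :=
  ∑ τ : Fin n → ℤˣ, (if |overlap n σ τ| ≤ ε then (1 : ℝ) else 0) * gibbs n β g τ

/-- `E_x ⟨ p₂(σ) ^ x' ⟩` -/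
noncomputable def P2 (n : ℕ) (β x x' ε : ℝ) : ℝ :=
  (∫ g, Real.exp (x * freeEnergy n β g) * ∑ σ : Fin n → ℤˣ, gibbs n β g σ *
    p2 n β ε g σ ^ x' ∂(disorder n)) / ∫ g, Real.exp (x * freeEnergy n β g) ∂(disorder n)

/-- the mean of `e^{-θ 1(|R(σ,·)| > ε)}` -/
noncomputable def Dn (n : ℕ) (β ε θ : ℝ) (g : Pair n → ℝ) (σ : Fin n → ℤˣ) : ℝ :=
  p2 n β ε g σ + (1 - p2 n β ε g σ) * Real.exp (-θ)

/-- `E ∑_σ G(σ) / D(σ)` -/
noncomputable def Jt (n : ℕ) (β ε θ : ℝ) : ℝ :=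
  ∫ g, ∑ σ : Fin n → ℤˣ, gibbs n β g σ * (Dn n β ε θ g σ)⁻¹ ∂(disorder n)

/-- the exponent of the planted partition function -/
noncomputable def ph (n : ℕ) (β ε θ : ℝ) (g : Pair n → ℝ) : ℝ :=
  β * hamiltonian n g 1 - Fp n β (fun σ => -θ * ps n ε σ) g

variable {n : ℕ} {β : ℝ}

lemma disorder_eq : disorder n = gI (Pair n) := rfl

lemma ps_nonneg (ε : ℝ) (σ : Fin n → ℤˣ) : 0 ≤ ps n ε σ := by
  unfold ps; split_ifs <;> norm_num

lemma ov_mul (σ τ : Fin n → ℤˣ) : overlap n (σ * τ) 1 = overlap n σ τ := by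
  unfold overlap
  congr 1
  refine Finset.sum_congr rfl fun i _ => ?_
  simp

lemma ov_mul' (s σ τ : Fin n → ℤˣ) : overlap n (s * σ) (s * τ) = overlap n σ τ := by
  rw [← ov_mul, ← ov_mul σ τ]
  congr 1
  have h : s * s = 1 := by
    funext i
    rcases Int.units_eq_one_or (s i) with h | h <;> simp [h]
  calc s * σ * (s * τ) = (s * s) * (σ * τ) := mul_mul_mul_comm s σ s τ
    _ = σ * τ := by rw [h, one_mul]

lemma ov_comm (σ τ : Fin n → ℤˣ) : overlap n σ τ = overlap n τ σ := by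
  unfold overlap
  congr 1
  exact Finset.sum_congr rfl fun i _ => mul_comm _ _

/-! ### the penalised free energy -/

lemma Fp_zero : Fp n β (fun _ => 0) = freeEnergy n β := by
  funext g
  unfold Fp freeEnergy partitionFn
  simp

lemma Fp_zero' (ε : ℝ) : Fp n β (fun σ => -0 * ps n ε σ) = freeEnergy n β := by
  rw [← Fp_zero]
  congr 1
  funext σ
  ring

lemma Fp_comb {a b : ℝ} (ha : 0 ≤ a) (hb : 0 ≤ b) (hab : a + b = 1)
    (w w' : (Fin n → ℤˣ) → ℝ) (g g' : Pair n → ℝ) :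
    Fp n β (fun σ => a * w σ + b * w' σ) (a • g + b • g') ≤
      a * Fp n β w g + b * Fp n β w' g' := by
  have h := lse_comb ha hb hab (fun σ => β * hamiltonian n g σ + w σ)
    (fun σ => β * hamiltonian n g' σ + w' σ)
  unfold Fp
  refine (le_of_eq ?_).trans h
  congr 1
  refine Finset.sum_congr rfl fun σ _ => ?_
  rw [H863.ham_lin]
  congr 1
  ring

/-- the Lipschitz constant for the sup norm -/
noncomputable def Bn (n : ℕ) (β : ℝ) : ℝ := |β| * (1 / Real.sqrt n * Fintype.card (Pair n))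

lemma Bn_nonneg : 0 ≤ Bn n β := by unfold Bn; positivity

lemma ham_norm (g : Pair n → ℝ) (σ : Fin n → ℤˣ) : |β * hamiltonian n g σ| ≤ Bn n β * ‖g‖ := by
  unfold Bn
  rw [abs_mul, mul_assoc]
  refine mul_le_mul_of_nonneg_left ((H863.ham_abs n g σ).trans ?_) (abs_nonneg β)
  rw [mul_assoc]
  refine mul_le_mul_of_nonneg_left ?_ (by positivity)
  refine (Finset.sum_le_card_nsmul _ _ ‖g‖ fun p _ => ?_).trans (le_of_eq ?_)
  · rw [← Real.norm_eq_abs]
    exact norm_le_pi_norm g p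
  · rw [nsmul_eq_mul, Finset.card_univ]

lemma ham_add (y v : Pair n → ℝ) (σ : Fin n → ℤˣ) :
    hamiltonian n (y + v) σ = hamiltonian n y σ + hamiltonian n v σ := by
  have := H863.ham_lin n 1 1 y v σ
  simpa using this

lemma lip_Fp (w : (Fin n → ℤˣ) → ℝ) : Lip (Fp n β w) := by
  refine ⟨Bn n β, Bn_nonneg, fun y y' => ?_⟩
  have hb : ∀ y y' : Pair n → ℝ, Fp n β w y ≤ Fp n β w y' + Bn n β * ‖y - y'‖ := by
    intro y y'
    unfold Fp
    refine lse_le fun σ => ?_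
    have h1 : hamiltonian n y σ = hamiltonian n (y - y') σ + hamiltonian n y' σ := by
      rw [← ham_add, sub_add_cancel]
    have h2 := (abs_le.1 (ham_norm (β := β) (y - y') σ)).2
    rw [h1, mul_add]
    linarith
  rw [abs_le]
  constructor
  · have := hb y' y
    rw [norm_sub_rev] at this
    linarith
  · have := hb y y'
    linarith

lemma lip_ham (β : ℝ) (σ : Fin n → ℤˣ) : Lip fun g : Pair n → ℝ => β * hamiltonian n g σ := by
  refine ⟨Bn n β, Bn_nonneg, fun y y' => ?_⟩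
  have h := ham_norm (β := β) (y - y') σ
  have e : hamiltonian n y σ = hamiltonian n (y - y') σ + hamiltonian n y' σ := by
    rw [← ham_add, sub_add_cancel]
  simp only
  rw [e]
  have e2 : β * (hamiltonian n (y - y') σ + hamiltonian n y' σ) - β * hamiltonian n y' σ =
      β * hamiltonian n (y - y') σ := by ring
  rwa [e2]

lemma lip_F : Lip (freeEnergy n β) := by
  rw [← Fp_zero]
  exact lip_Fp _

lemma eg_free : EG (freeEnergy n β) := lip_F.eg

lemma lip_ph (ε θ : ℝ) : Lip (ph n β ε θ) := by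
  have h := (lip_ham (n := n) β 1).add
    ((lip_Fp (n := n) (β := β) (fun σ => -θ * ps n ε σ)).const_mul (-1))
  unfold ph
  convert h using 2
  ring

lemma gr_of_lip {κ : Type} [Fintype κ] {f : (κ → ℝ) → ℝ} (hf : Lip f) : H863.PL.Gr f := by
  obtain ⟨L, hL, h⟩ := hf
  refine ⟨f 0, L, fun g => ?_⟩
  have h1 := (abs_le.1 (h g 0)).2
  rw [sub_zero] at h1
  have h2 : ‖g‖ ≤ ∑ i, |g i| := by
    refine (pi_norm_le_iff_of_nonneg (Finset.sum_nonneg fun i _ => abs_nonneg _)).2 fun i => ?_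
    rw [Real.norm_eq_abs]
    exact Finset.single_le_sum (f := fun i => |g i|) (fun _ _ => abs_nonneg _)
      (Finset.mem_univ i)
  nlinarith [mul_le_mul_of_nonneg_left h2 hL]

lemma ph_concave (n : ℕ) (β ε : ℝ) :
    ConcaveOn ℝ univ (fun p : ℝ × (Pair n → ℝ) => ph n β ε p.1 p.2) := by
  refine ⟨convex_univ, fun p _ q _ a b ha hb hab => ?_⟩
  obtain ⟨θ, w⟩ := p
  obtain ⟨θ', w'⟩ := q
  simp only [Prod.smul_mk, Prod.mk_add_mk, smul_eq_mul]
  unfold ph
  have e0 : (fun σ => -(a * θ + b * θ') * ps n ε σ) =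
      fun σ => a * (-θ * ps n ε σ) + b * (-θ' * ps n ε σ) := by
    funext σ; ring
  rw [e0, H863.ham_lin]
  have h1 := Fp_comb (β := β) ha hb hab (fun σ => -θ * ps n ε σ) (fun σ => -θ' * ps n ε σ) w w'
  linarith

/-- **Log-concavity of the planted partition function in the penalty.** -/
theorem ph_logconc (n : ℕ) (β ε : ℝ) :
    ConcaveOn ℝ univ fun θ : ℝ =>
      Real.log (∫ g, Real.exp (ph n β ε θ g) ∂(gI (Pair n))) :=
  H863.PL.gauss (fun θ g => ph n β ε θ g) (ph_concave n β ε)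
    (fun θ => (lip_ph ε θ).measurable) (fun θ => gr_of_lip (lip_ph ε θ))

/-! ### gauge symmetry -/

lemma card_conf : (Finset.univ : Finset (Fin n → ℤˣ)).card = 2 ^ n := by
  rw [Finset.card_univ]
  simp [Fintype.card_units_int]

/-- the sum over the planted configuration -/
theorem gauge_gen {f : (Fin n → ℤˣ) → (Pair n → ℝ) → ℝ}
    (hf : ∀ s ω, f 1 (Gauge.flip s ω) = f s ω) (hi : ∀ σ, Integrable (f σ) (disorder n)) :
    ∫ ω, ∑ σ, f σ ω ∂(disorder n) = 2 ^ n * ∫ ω, f 1 ω ∂(disorder n) := by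
  have h1 : ∀ σ, ∫ ω, f σ ω ∂(disorder n) = ∫ ω, f 1 ω ∂(disorder n) := by
    intro σ
    have hm := measurePreserving_flip (n := n) σ
    have hmeas : AEStronglyMeasurable (f 1) ((disorder n).map (Gauge.flip σ)) := by
      rw [hm.map_eq]
      exact (hi 1).aestronglyMeasurable
    have h := integral_map (μ := disorder n) hm.measurable.aemeasurable hmeas
    rw [hm.map_eq] at h
    rw [h]
    simp only [hf]
  rw [integral_finsetSum _ fun σ _ => hi σ, Finset.sum_congr rfl fun σ _ => h1 σ,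
    Finset.sum_const, card_conf, nsmul_eq_mul]
  push_cast
  ring

lemma free_flip (s : Fin n → ℤˣ) (g : Pair n → ℝ) :
    freeEnergy n β (Gauge.flip s g) = freeEnergy n β g := by
  unfold freeEnergy
  rw [partitionFn_flip]

lemma gibbs_eq (g : Pair n → ℝ) (σ : Fin n → ℤˣ) :
    gibbs n β g σ = Real.exp (β * hamiltonian n g σ - freeEnergy n β g) :=
  H863.gibbs_eq_exp n β g σ

lemma eg_gibbs (σ : Fin n → ℤˣ) : EG fun g : Pair n → ℝ => gibbs n β g σ := by
  refine EG.of_bdd (continuous_gibbs β σ).measurable (C := 1) fun g => ?_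
  rw [abs_of_nonneg (gibbs_nonneg β g σ)]
  exact gibbs_le_one β g σ

lemma p2_nonneg (ε : ℝ) (g : Pair n → ℝ) (σ : Fin n → ℤˣ) : 0 ≤ p2 n β ε g σ :=
  Finset.sum_nonneg fun τ _ => mul_nonneg (by split_ifs <;> norm_num) (gibbs_nonneg β g τ)

lemma p2_le_one (ε : ℝ) (g : Pair n → ℝ) (σ : Fin n → ℤˣ) : p2 n β ε g σ ≤ 1 := by
  have h : p2 n β ε g σ ≤ ∑ τ : Fin n → ℤˣ, gibbs n β g τ := by
    unfold p2
    refine Finset.sum_le_sum fun τ _ => ?_
    exact mul_le_of_le_one_left (gibbs_nonneg β g τ) (by split_ifs <;> norm_num)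
  rwa [sum_gibbs] at h

lemma p2_flip (ε : ℝ) (s : Fin n → ℤˣ) (g : Pair n → ℝ) (σ : Fin n → ℤˣ) :
    p2 n β ε (Gauge.flip s g) σ = p2 n β ε g (s * σ) := by
  unfold p2
  refine Fintype.sum_equiv (Equiv.mulLeft s) _ _ fun τ => ?_
  simp only [Equiv.coe_mulLeft, gibbs_flip, ov_mul']

lemma cont_p2 (ε : ℝ) (σ : Fin n → ℤˣ) : Continuous fun g : Pair n → ℝ => p2 n β ε g σ := by
  unfold p2
  exact continuous_finsetSum _ fun τ _ => continuous_const.mul (continuous_gibbs β τ)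

lemma eg_p2 (ε : ℝ) {y : ℝ} (hy : 0 < y) (σ : Fin n → ℤˣ) :
    EG fun g : Pair n → ℝ => p2 n β ε g σ ^ y := by
  refine EG.of_bdd ((cont_p2 ε σ).measurable.pow_const y) (C := 1) fun g => ?_
  rw [abs_of_nonneg (Real.rpow_nonneg (p2_nonneg ε g σ) y)]
  exact Real.rpow_le_one (p2_nonneg ε g σ) (p2_le_one ε g σ) hy.le

/-! ### the denominator -/

lemma exp_gap (ε θ : ℝ) (g : Pair n → ℝ) :
    Real.exp (-(freeEnergy n β g - Fp n β (fun σ => -θ * ps n ε σ) g)) = Dn n β ε θ g 1 := by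
  have h4 : Real.exp (-(freeEnergy n β g - Fp n β (fun σ => -θ * ps n ε σ) g)) =
      ∑ σ : Fin n → ℤˣ, gibbs n β g σ * Real.exp (-θ * ps n ε σ) := by
    rw [neg_sub, Real.exp_sub]
    have e1 : Real.exp (Fp n β (fun σ => -θ * ps n ε σ) g) =
        ∑ σ : Fin n → ℤˣ, Real.exp (β * hamiltonian n g σ + -θ * ps n ε σ) :=
      Real.exp_log (sum_exp_pos _)
    rw [e1, Finset.sum_div]
    refine Finset.sum_congr rfl fun σ _ => ?_
    rw [gibbs_eq, Real.exp_sub, Real.exp_add]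
    ring
  rw [h4]
  have h5 : Dn n β ε θ g 1 = ∑ σ : Fin n → ℤˣ, gibbs n β g σ *
      ((if |overlap n 1 σ| ≤ ε then (1 : ℝ) else 0) * (1 - Real.exp (-θ)) + Real.exp (-θ)) := by
    unfold Dn p2
    have e2 : ∀ σ : Fin n → ℤˣ, gibbs n β g σ *
        ((if |overlap n 1 σ| ≤ ε then (1 : ℝ) else 0) * (1 - Real.exp (-θ)) + Real.exp (-θ)) =
        (if |overlap n 1 σ| ≤ ε then (1 : ℝ) else 0) * gibbs n β g σ * (1 - Real.exp (-θ)) +
          gibbs n β g σ * Real.exp (-θ) := fun σ => by ring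
    simp_rw [e2]
    rw [Finset.sum_add_distrib, ← Finset.sum_mul, ← Finset.sum_mul, sum_gibbs]
    ring
  rw [h5]
  refine Finset.sum_congr rfl fun σ _ => ?_
  rw [ov_comm 1 σ]
  unfold ps
  by_cases h : ε < |overlap n σ 1|
  · rw [if_pos h, if_neg (not_le.2 h)]
    simp
  · rw [if_neg h, if_pos (not_lt.1 h)]
    simp

lemma Dn_pos (ε θ : ℝ) (g : Pair n → ℝ) (σ : Fin n → ℤˣ) : 0 < Dn n β ε θ g σ := by
  unfold Dn
  have h1 := p2_nonneg (β := β) ε g σ
  have h2 := p2_le_one (β := β) ε g σ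
  have h3 := Real.exp_pos (-θ)
  rcases h1.lt_or_eq with h | h
  · have : 0 ≤ (1 - p2 n β ε g σ) * Real.exp (-θ) := mul_nonneg (by linarith) h3.le
    linarith
  · rw [← h]
    linarith

lemma Dn_flip (ε θ : ℝ) (s : Fin n → ℤˣ) (g : Pair n → ℝ) (σ : Fin n → ℤˣ) :
    Dn n β ε θ (Gauge.flip s g) σ = Dn n β ε θ g (s * σ) := by
  unfold Dn
  rw [p2_flip]

lemma exp_ph (ε θ : ℝ) (g : Pair n → ℝ) :
    Real.exp (ph n β ε θ g) = gibbs n β g 1 * (Dn n β ε θ g 1)⁻¹ := by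
  rw [← exp_gap, gibbs_eq, ← Real.exp_neg, ← Real.exp_add]
  unfold ph
  congr 1
  ring

lemma cont_Dn (ε θ : ℝ) (σ : Fin n → ℤˣ) :
    Continuous fun g : Pair n → ℝ => Dn n β ε θ g σ := by
  unfold Dn
  exact (cont_p2 ε σ).add ((continuous_const.sub (cont_p2 ε σ)).mul continuous_const)

lemma int_gD (ε θ : ℝ) (σ : Fin n → ℤˣ) :
    Integrable (fun g : Pair n → ℝ => gibbs n β g σ * (Dn n β ε θ g σ)⁻¹) (disorder n) := by
  have hm := measurePreserving_flip (n := n) σ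
  have h1 : Integrable (fun g : Pair n → ℝ => Real.exp (ph n β ε θ g)) (disorder n) := by
    have := (lip_ph (n := n) (β := β) ε θ).exp_eg 1
    simp only [one_mul] at this
    exact this.integrable
  have h2 := hm.integrable_comp_of_integrable h1
  refine h2.congr (Filter.Eventually.of_forall fun g => ?_)
  simp only [Function.comp]
  rw [exp_ph, gibbs_flip, Dn_flip, mul_one]

/-- the planted partition function is the mean of `1 / D` -/
theorem J_eq (ε θ : ℝ) :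
    2 ^ n * ∫ g, Real.exp (ph n β ε θ g) ∂(gI (Pair n)) = Jt n β ε θ := by
  have h := gauge_gen (n := n) (f := fun σ g => gibbs n β g σ * (Dn n β ε θ g σ)⁻¹)
    (fun s g => by rw [gibbs_flip, Dn_flip, mul_one]) (fun σ => int_gD ε θ σ)
  unfold Jt
  rw [h]
  simp_rw [exp_ph]
  rfl

lemma Jt_zero (ε : ℝ) : Jt n β ε 0 = 1 := by
  unfold Jt
  have h : ∀ g : Pair n → ℝ, ∑ σ : Fin n → ℤˣ, gibbs n β g σ * (Dn n β ε 0 g σ)⁻¹ = 1 := by
    intro g
    have h1 : ∀ σ, Dn n β ε 0 g σ = 1 := by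
      intro σ
      unfold Dn
      rw [neg_zero, Real.exp_zero]
      ring
    simp_rw [h1, inv_one, mul_one]
    exact sum_gibbs β g
  simp_rw [h]
  simp

lemma Jt_pos (ε θ : ℝ) : 0 < Jt n β ε θ := by
  rw [← J_eq]
  have h1 : EG fun g : Pair n → ℝ => Real.exp (ph n β ε θ g) := by
    have := (lip_ph (n := n) (β := β) ε θ).exp_eg 1
    simpa only [one_mul] using this
  have := integral_exp_pos h1.integrable
  positivity

/-- **Concavity**: `log J(θ₁) / θ₁` is at least `log J(θ) / θ` for `θ₁ < θ`. -/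
theorem J_conc (ε : ℝ) {θ θ1 : ℝ} (h1 : 0 < θ1) (h2 : θ1 < θ) :
    θ1 / θ * Real.log (Jt n β ε θ) ≤ Real.log (Jt n β ε θ1) := by
  have hθ0 : 0 < θ := h1.trans h2
  have h2n : (0 : ℝ) < 2 ^ n := by positivity
  have hc := ph_logconc n β ε
  have pJ : ∀ θ, 0 < ∫ g, Real.exp (ph n β ε θ g) ∂(gI (Pair n)) := by
    intro θ
    have h1 : EG fun g : Pair n → ℝ => Real.exp (ph n β ε θ g) := by
      have := (lip_ph (n := n) (β := β) ε θ).exp_eg 1
      simpa only [one_mul] using this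
    exact integral_exp_pos h1.integrable
  have hl0 : 0 ≤ θ1 / θ := by positivity
  have hl1 : θ1 / θ ≤ 1 := by rw [div_le_one hθ0]; exact h2.le
  have h3 := hc.2 (mem_univ (0 : ℝ)) (mem_univ θ) (by linarith : 0 ≤ 1 - θ1 / θ) hl0 (by ring)
  simp only [smul_eq_mul, mul_zero, zero_add] at h3
  have e1 : θ1 / θ * θ = θ1 := by field_simp
  rw [e1] at h3
  have hΦ : ∀ θ, Real.log (Jt n β ε θ) = Real.log (2 ^ n) +
      Real.log (∫ g, Real.exp (ph n β ε θ g) ∂(gI (Pair n))) := fun θ => by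
    rw [← J_eq, Real.log_mul h2n.ne' (pJ θ).ne']
  have e2 := hΦ 0
  rw [Jt_zero, Real.log_one] at e2
  rw [hΦ θ, hΦ θ1]
  nlinarith [h3]

end Vale.Agent.P146.H357
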